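import Vale.Agent.P122.Z.Core
import Vale.Agent.P122.H535.E5
import Vale.Agent.P122.H823.Cut
import Vale.Agent.P122.H380.Lst
import Vale.Agent.P122.H465.E9Fin
import Vale.Agent.P122.H425.StRG
import Vale.Agent.P127.U.Lam.Final

/-! # P122 / Q : the multiscale theorem `StCORE` -/

set_option autoImplicit false

namespace Vale.Agent.P122.Q

open Vale.Agent.P122.E Vale.Agent.P122.S Vale.Agent.P127.U

theorem stCORE : C2.StCORE := by
  have hJ : ∀ β : ℝ, 0 < β → JF 2 β := Final.jf2
  have h8 : StE8 := H380.e8_of' H823.stCut e5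
  exact Z.core_of hJ ⟨_, e5⟩ h8 (H465.stE9 (K931.e4 hJ) h8) H425.stRG

end Vale.Agent.P122.Q
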