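import Vale.Agent.P122.FI.Top
import Vale.Agent.P122.H800.Piece

/-! # P122 / Q : the final form of the answer to Question 1 (helper117)

The compact set is only assumed to be contained, near each of its points `p`, in a smooth surface whose second
fundamental form is definite at `p`. All exponents `3 < p ≤ ∞`, all `f ∈ L^p`. -/

open MeasureTheory Complex Set Filter Topology
open scoped ENNReal NNReal ContDiff

set_option linter.all false

namespace Vale.Agent.P122.Q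

open Vale.Agent.P122.FI

/-- definiteness of the second fundamental form at the point `p` of the surface `F = 0` -/
def Def2 (F : E3 → ℝ) (p : E3) : Prop :=
  fderiv ℝ F p ≠ 0 ∧ ∀ v : E3, v ≠ 0 → fderiv ℝ F p v = 0 → 0 < fderiv ℝ (fderiv ℝ F) p v v

/-- near each of its points `p`, the set is contained in a smooth surface whose second fundamental form is definite at `p` -/
def LocPos (Sg : Set E3) : Prop :=
  ∀ p ∈ Sg, ∃ (U : Set E3) (F : E3 → ℝ), IsOpen U ∧ p ∈ U ∧ ContDiffOn ℝ ∞ F U ∧ (∀ x ∈ Sg ∩ U, F x = 0) ∧ Def2 F p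

theorem def2_eventually {U : Set E3} {F : E3 → ℝ} {p : E3} (hU : IsOpen U) (hp : p ∈ U) (hF : ContDiffOn ℝ ∞ F U)
    (h : Def2 F p) : ∀ᶠ x in 𝓝 p, Def2 F x := by
  have hc1 : ContDiffOn ℝ 1 (fderiv ℝ F) U := hF.fderiv_of_isOpen hU (by norm_cast)
  have hc2 : ContDiffOn ℝ 0 (fderiv ℝ (fderiv ℝ F)) U := hc1.fderiv_of_isOpen hU (by norm_num)
  have ha1 : ContinuousAt (fderiv ℝ F) p := hc1.continuousOn.continuousAt (hU.mem_nhds hp)
  have ha2 : ContinuousAt (fderiv ℝ (fderiv ℝ F)) p := hc2.continuousOn.continuousAt (hU.mem_nhds hp)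
  have e1 : ∀ᶠ x in 𝓝 p, fderiv ℝ F x ≠ 0 := ha1.eventually_ne h.1
  have e2 : ∀ᶠ x in 𝓝 p, ∀ v ∈ Metric.sphere (0 : E3) 1, (fderiv ℝ F x v = 0 → 0 < fderiv ℝ (fderiv ℝ F) x v v) := by
    refine (isCompact_sphere (0 : E3) 1).eventually_forall_of_forall_eventually
      (P := fun x v => (fderiv ℝ F x v = 0 → 0 < fderiv ℝ (fderiv ℝ F) x v v)) ?_
    intro v hv
    have hf1 : ContinuousAt (fun z : E3 × E3 => fderiv ℝ F z.1 z.2) (p, v) := by
      have h1 : ContinuousAt (fun z : E3 × E3 => fderiv ℝ F z.1) (p, v) := ContinuousAt.comp (x := (p, v)) ha1 continuousAt_fst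
      exact h1.clm_apply continuousAt_snd
    have hf2 : ContinuousAt (fun z : E3 × E3 => fderiv ℝ (fderiv ℝ F) z.1 z.2 z.2) (p, v) := by
      have h1 : ContinuousAt (fun z : E3 × E3 => fderiv ℝ (fderiv ℝ F) z.1) (p, v) :=
        ContinuousAt.comp (x := (p, v)) ha2 continuousAt_fst
      exact (h1.clm_apply continuousAt_snd).clm_apply continuousAt_snd
    by_cases hz : fderiv ℝ F p v = 0
    · have hv0 : v ≠ 0 := by
        rintro rfl
        simp at hv
      have h3 := h.2 v hv0 hz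
      have := hf2.eventually_const_lt h3
      filter_upwards [this] with z hz' _
      exact hz'
    · have := hf1.eventually_ne hz
      filter_upwards [this] with z hz' h0
      exact absurd h0 hz'
  filter_upwards [e1, e2] with x h1 h2
  refine ⟨h1, fun v hv h0 => ?_⟩
  have hn : 0 < ‖v‖ := norm_pos_iff.2 hv
  have h3 := h2 ((‖v‖)⁻¹ • v) (by simp [norm_smul, hn.ne']) (by rw [map_smul, h0, smul_zero])
  rw [map_smul, map_smul] at h3
  simp only [ContinuousLinearMap.smul_apply, smul_eq_mul] at h3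
  have h4 : 0 < (‖v‖)⁻¹ := inv_pos.2 hn
  exact pos_of_mul_pos_right (pos_of_mul_pos_right h3 h4.le) h4.le

theorem exists_local {U : Set E3} {F : E3 → ℝ} {p : E3} (hU : IsOpen U) (hp : p ∈ U) (hF : ContDiffOn ℝ ∞ F U)
    (h : Def2 F p) : ∃ V : Set E3, IsOpen V ∧ p ∈ V ∧ V ⊆ U ∧ PosCurved {x | x ∈ V ∧ F x = 0} := by
  obtain ⟨W, hW1, hW2, hW3⟩ := eventually_nhds_iff.1 (def2_eventually hU hp hF h)
  refine ⟨W ∩ U, hW2.inter hU, ⟨hW3, hp⟩, inter_subset_right, ?_⟩
  intro q hq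
  refine ⟨W ∩ U, F, hW2.inter hU, hq.1, hF.mono inter_subset_right, ?_, ?_⟩
  · ext x
    constructor
    · rintro ⟨⟨h1, h2⟩, h3⟩
      exact ⟨h1, h2⟩
    · rintro ⟨h1, h2⟩
      exact ⟨⟨h1, h2⟩, h1⟩
  · intro x hx
    exact hW1 x hx.2.1

/-- finiteness of the area of a chart -/
theorem surf_chart_lt_top (q : E3) (A : E3 ≃L[ℝ] E3) {h : ℝ × ℝ → ℝ} (hh : ContDiff ℝ ∞ h) (r : ℝ) (T : Set E3)
    (hG : ∀ ξ ∈ T, ∃ y ∈ FI.sq r, ξ = q + A (gr h y)) : surf T univ < ⊤ := by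
  obtain ⟨c, w, hw, hwc, hw0, hmap⟩ := H800.exists_density q A hh r T hG
  unfold surf
  rw [Measure.smul_apply, smul_eq_mul]
  refine ENNReal.mul_lt_top ENNReal.ofReal_lt_top ?_
  have h1 : ((Measure.hausdorffMeasure 2 : Measure E3).restrict T) univ =
      (((Measure.hausdorffMeasure 2 : Measure E3).restrict T).map (H800.PP q A)) univ := by
    rw [Measure.map_apply (H800.measurable_PP q A) MeasurableSet.univ, preimage_univ]
  rw [h1, hmap, withDensity_apply _ MeasurableSet.univ, Measure.restrict_univ]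
  have h2 : ∀ y, (w y : ℝ≥0∞) ≤ (FI.sq r).indicator (fun _ => (c : ℝ≥0∞)) y := by
    intro y
    by_cases hy : y ∈ FI.sq r
    · rw [indicator_of_mem hy]
      exact_mod_cast hwc y
    · rw [indicator_of_notMem hy, hw0 y hy]
      simp
  refine (lintegral_mono h2).trans_lt ?_
  rw [lintegral_indicator_const (H800.measurableSet_sq r)]
  exact ENNReal.mul_lt_top ENNReal.coe_lt_top (H800.isCompact_sq r).measure_lt_top

/-- the estimates on all measurable subsets, and finiteness of the area -/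
theorem key (hG : GRAPH) (hC : CHART) (hP : PIECE) {Sg : Set E3} (hcpt : IsCompact Sg) (hS : LocPos Sg) :
    surf Sg univ < ⊤ ∧ ∀ p : ℝ, 3 < p → Diag Sg p := by
  have key : ∃ s' : Set E3, MeasurableSet s' ∧ Sg ⊆ s' ∧
      ∀ T : Set E3, MeasurableSet T → T ⊆ s' ∩ Sg → surf T univ < ⊤ ∧ ∀ p : ℝ, 3 < p → Diag T p := by
    refine hcpt.induction_on (p := fun s => ∃ s' : Set E3, MeasurableSet s' ∧ s ⊆ s' ∧
      ∀ T : Set E3, MeasurableSet T → T ⊆ s' ∩ Sg → surf T univ < ⊤ ∧ ∀ p : ℝ, 3 < p → Diag T p) ?_ ?_ ?_ ?_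
    · refine ⟨∅, MeasurableSet.empty, le_rfl, fun T _ hT => ?_⟩
      have : T = ∅ := by
        rw [Set.empty_inter] at hT
        exact Set.subset_eq_empty hT rfl
      rw [this]
      refine ⟨?_, fun p _ => Diag.empty p⟩
      simp [surf]
    · rintro s t hst ⟨s', h1, h2, h3⟩
      exact ⟨s', h1, hst.trans h2, h3⟩
    · rintro s t ⟨s', h1, h2, h3⟩ ⟨t', k1, k2, k3⟩
      refine ⟨s' ∪ t', h1.union k1, Set.union_subset_union h2 k2, fun T hT hTs => ?_⟩
      have e : T = (T \ s') ∪ (T ∩ s') := (Set.diff_union_inter T s').symm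
      have hA := k3 (T \ s') (hT.diff h1) fun ξ hξ => by
        rcases (hTs hξ.1).1 with h | h
        · exact absurd h hξ.2
        · exact ⟨h, (hTs hξ.1).2⟩
      have hB := h3 (T ∩ s') (hT.inter h1) fun ξ hξ => ⟨hξ.2, (hTs hξ.1).2⟩
      rw [e]
      refine ⟨?_, fun p hp => Diag.union (by linarith) (hT.inter h1) Set.disjoint_sdiff_inter (hA.2 p hp) (hB.2 p hp)⟩
      rw [surf_union (hT.inter h1) Set.disjoint_sdiff_inter, Measure.add_apply]
      exact ENNReal.add_lt_top.2 ⟨hA.1, hB.1⟩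
    · intro q hq
      obtain ⟨U, F, hU, hqU, hF, hz, hd⟩ := hS q hq
      obtain ⟨V0, hV0, hqV0, hV0U, hpc⟩ := exists_local hU hqU hF hd
      obtain ⟨A, h, hh, hV⟩ := hC _ hpc q ⟨hqV0, hz q ⟨hq, hqU⟩⟩
      obtain ⟨r, hr, hr'⟩ := hG h hh
      obtain ⟨V, hVo, hqV, hVS⟩ := hV r hr
      refine ⟨V ∩ V0, mem_nhdsWithin_of_mem_nhds ((hVo.inter hV0).mem_nhds ⟨hqV, hqV0⟩), V ∩ V0,
        (hVo.inter hV0).measurableSet, le_rfl, fun T hT hTs => ?_⟩
      have hTG : ∀ ξ ∈ T, ∃ y ∈ sq r, ξ = q + A (gr h y) := fun ξ hξ =>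
        hVS ξ ⟨⟨(hTs hξ).1.2, hz ξ ⟨(hTs hξ).2, hV0U (hTs hξ).1.2⟩⟩, (hTs hξ).1.1⟩
      refine ⟨surf_chart_lt_top q A hh.smooth r T hTG, fun p hp => ?_⟩
      obtain ⟨C, hC'⟩ := hr' p hp
      exact hP q A h r p C hh hr (by linarith) hC' T hT hTG
  obtain ⟨s', h1, h2, h3⟩ := key
  exact h3 Sg hcpt.measurableSet fun ξ hξ => ⟨h2 hξ, hξ⟩

theorem extension_congr {Sg : Set E3} {f g : E3 → ℂ} (h : f =ᵐ[surf Sg] g) : extension Sg f = extension Sg g := by
  funext x
  unfold extension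
  refine integral_congr_ae ?_
  filter_upwards [h] with ξ hξ
  rw [hξ]

/-- **all exponents `3 < p ≤ ∞`, all `f ∈ L^p`** -/
theorem full (hG : GRAPH) (hC : CHART) (hP : PIECE) {Sg : Set E3} (hcpt : IsCompact Sg) (hS : LocPos Sg) (p : ℝ≥0∞)
    (hp : 3 < p) : ∃ C : ℝ≥0, ∀ f : E3 → ℂ, MemLp f p (surf Sg) →
      eLpNorm (extension Sg f) p volume ≤ C * eLpNorm f p (surf Sg) := by
  obtain ⟨h1, h2⟩ := key hG hC hP hcpt hS
  by_cases hpt : p = ⊤
  · subst hpt
    refine ⟨(surf Sg univ).toNNReal, fun f hf => ?_⟩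
    rw [ENNReal.coe_toNNReal h1.ne, eLpNorm_exponent_top]
    refine (eLpNorm_le_of_ae_enorm_bound (p := ⊤) (C := surf Sg univ * eLpNorm f ⊤ (surf Sg)) (μ := volume)
      (f := extension Sg f) (Filter.Eventually.of_forall fun x => ?_)).trans ?_
    · unfold extension
      refine (enorm_integral_le_lintegral_enorm _).trans ?_
      have h3 : ∀ ξ, ‖f ξ * cexp (2 * Real.pi * I * (inner ℝ x ξ : ℝ))‖ₑ = ‖f ξ‖ₑ := by
        intro ξ
        rw [enorm_mul]
        have : ‖cexp (2 * Real.pi * I * (inner ℝ x ξ : ℝ))‖ₑ = 1 := by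
          rw [← ofReal_norm, norm_ker, ENNReal.ofReal_one]
        rw [this, mul_one]
      simp only [h3]
      rw [mul_comm]
      have h4 : ∫⁻ ξ, ‖f ξ‖ₑ ∂(surf Sg) ≤ ∫⁻ ξ, eLpNorm f ⊤ (surf Sg) ∂(surf Sg) := by
        refine lintegral_mono_ae ?_
        rw [eLpNorm_exponent_top]
        exact ae_le_essSup
      refine h4.trans ?_
      rw [lintegral_const]
    · simp
  · have hp' : ENNReal.ofReal p.toReal = p := ENNReal.ofReal_toReal hpt
    have h3 : 3 < p.toReal := by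
      have := (ENNReal.toReal_lt_toReal (by simp) hpt).2 hp
      simpa using this
    obtain ⟨C, hC'⟩ := h2 p.toReal h3
    refine ⟨C, fun f hf => ?_⟩
    have hfm := hf.1
    have hae : f =ᵐ[surf Sg] hfm.mk f := hfm.ae_eq_mk
    rw [extension_congr hae, eLpNorm_congr_ae hae]
    have := hC' (hfm.mk f) hfm.stronglyMeasurable_mk.measurable
    rwa [hp'] at this

end Vale.Agent.P122.Q
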