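import Vale.Agent.P122.Q.Gen
import Vale.Agent.P122.FI.Chart
import Vale.Agent.P122.FI.Examples
import Vale.Agent.P122.H567.Graph

/-! # P122 / Q : draft of the hand-in, with the estimate `GRAPH` for small graph pieces as a hypothesis (helper117) -/

open MeasureTheory Complex Set
open scoped ENNReal NNReal ContDiff

namespace Vale.Agent.P122.Q.Hand

/-- three-dimensional euclidean space -/
abbrev R3 := EuclideanSpace ℝ (Fin 3)

/-- `Sg` is a compact piece of a smooth positively curved surface: `Sg` is compact and, near each of its points `p`, it is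
contained in a smooth surface whose second fundamental form is definite at `p`. The smooth surface is the zero set of a
smooth function `F` with nonvanishing differential at `p`; its second fundamental form is definite at `p` iff the second
derivative of `F` or of `-F` is positive definite on its tangent plane at `p`, and the sign of `F` is free. -/
def PosCurvedPiece (Sg : Set R3) : Prop :=
  IsCompact Sg ∧ ∀ p ∈ Sg, ∃ (U : Set R3) (F : R3 → ℝ), IsOpen U ∧ p ∈ U ∧ ContDiffOn ℝ ∞ F U ∧
    (∀ x ∈ Sg ∩ U, F x = 0) ∧ fderiv ℝ F p ≠ 0 ∧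
    ∀ v : R3, v ≠ 0 → fderiv ℝ F p v = 0 → 0 < fderiv ℝ (fderiv ℝ F) p v v

/-- the surface measure of `Sg`: the two-dimensional Hausdorff measure on `Sg`, normalised to be the area
(Mathlib's `μH[2]` is `4 / π` times the area) -/
noncomputable def surfaceMeasure (Sg : Set R3) : Measure R3 :=
  ENNReal.ofReal (Real.pi / 4) • (Measure.hausdorffMeasure 2 : Measure R3).restrict Sg

/-- the Fourier extension operator of `Sg` -/
noncomputable def extension (Sg : Set R3) (f : R3 → ℂ) (x : R3) : ℂ :=
  ∫ ξ, f ξ * cexp (2 * Real.pi * I * (inner ℝ x ξ : ℝ)) ∂(surfaceMeasure Sg)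

/-- the unit sphere is an example -/
theorem sphere_piece : PosCurvedPiece (Metric.sphere (0 : R3) 1) := Vale.Agent.P122.FI.posPiece_sphere

/-- compact pieces of the paraboloid are examples -/
theorem paraboloid_piece (r : ℝ) :
    PosCurvedPiece {x : R3 | x 2 = x 0 ^ 2 + x 1 ^ 2 ∧ |x 0| ≤ r ∧ |x 1| ≤ r} :=
  Vale.Agent.P122.FI.posPiece_paraboloid r

/-- the Fourier restriction conjecture for positively curved surfaces in `ℝ³` -/
theorem result (hG : Vale.Agent.P122.FI.GRAPH) (Sg : Set R3) (hSg : PosCurvedPiece Sg) (p : ℝ≥0∞) (hp : 3 < p) :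
    ∃ C : ℝ≥0, ∀ f : R3 → ℂ, MemLp f p (surfaceMeasure Sg) →
      eLpNorm (extension Sg f) p volume ≤ C * eLpNorm f p (surfaceMeasure Sg) :=
  Vale.Agent.P122.Q.full hG Vale.Agent.P122.FI.chart Vale.Agent.P122.H800.piece hSg.1 hSg.2 p hp

end Vale.Agent.P122.Q.Hand
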